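import Vale.Agent.P210Q.Pre
import Vale.Agent.P210R.Sweep
import Vale.Agent.P210D.Drift
import Vale.Agent.P210D.Alg
import Vale.Agent.P210T.LStep
import Vale.Agent.P210T.Step
import Vale.Agent.P210N.Gam
import Vale.Agent.P210N.Algo
import Vale.Agent.P210V.MixB
import Vale.Agent.P210W.Out
import Vale.Agent.P210F.Inner

/-!
# P210Q: the codimension two width bound
-/

namespace Vale.Agent.P210Q

theorem sweep : P210R.SWEEP :=
  P210R.sweep_of P210D.drift (P210W.pstep P210N.gam P210T.lstep) P210V.mix_R P210V.mixB P210D.alg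
    P210N.algo P210W.sw1R (P210F.inner P210T.step) (P210W.outer P210T.step)

theorem q1 : P210B.Q1 := q1_sw sweep

end Vale.Agent.P210Q
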