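import Vale.Agent.P210E.All
import Vale.Agent.P210J.Zb
import Vale.Agent.P210U.Main
import Vale.Agent.P210S.Main
import Vale.Agent.P210A.Round

/-!
# P210Q: the question follows from `SWEEP`
-/

namespace Vale.Agent.P210Q

theorem q1_sw (h : P210R.SWEEP) : P210B.Q1 :=
  P210U.q1_of (fun n hn => P210S.st1 (P210A.round_of h n (by omega)))
    fun m _ => P210E.ble_zb P210J.zb m

end Vale.Agent.P210Q
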